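import Vale.Agent.P236X.BrF
import Vale.Agent.P236B.TT
import Vale.Agent.P236B.QT
import Vale.Agent.P236Xd.Zs1
import Vale.Agent.P236Xu.U0g0n0
import Vale.Agent.P236Xu.U0g0n1
import Vale.Agent.P236Xu.U0g1n0
import Vale.Agent.P236Xu.U0g1n1
import Vale.Agent.P236Xu.U0g2n0
import Vale.Agent.P236Xu.U0g2n1

/-!
# P236 : the check of the square on the level 0
-/

namespace Vale.Agent.P236X

open Vale.Agent.P236B Vale.Agent.P236N

set_option maxRecDepth 100000 in
theorem un0g0 : UnOK L0 C13 P236N.mk0 0 Z1g0 :=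
  unOK_of3 (V := Z1g0v) br13 rfl rfl rfl rfl (by decide +kernel)
    (cvU_append u0g0n0
    (cvU_append u0g0n1
    (cvU_nil _ _)))

set_option maxRecDepth 100000 in
theorem un0g1 : UnOK L0 C13 P236N.mk0 0 Z1g1 :=
  unOK_of3 (V := Z1g1v) br13 rfl rfl rfl rfl (by decide +kernel)
    (cvU_append u0g1n0
    (cvU_append u0g1n1
    (cvU_nil _ _)))

set_option maxRecDepth 100000 in
theorem un0g2 : UnOK L0 C13 P236N.mk0 0 Z1g2 :=
  unOK_of3 (V := Z1g2v) br13 rfl rfl rfl rfl (by decide +kernel)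
    (cvU_append u0g2n0
    (cvU_append u0g2n1
    (cvU_nil _ _)))

set_option maxRecDepth 100000 in
theorem lvk0 : LvOK L0 L1 P236N.mk0 94 0 2 13 Zs1 :=
  lvOK_of prgOK2_13 (by decide +kernel)
    (all_cons un0g0
    (all_cons un0g1
    (all_cons un0g2
    all_nil)))

end Vale.Agent.P236X
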