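import Vale.Agent.P236X.BrF
import Vale.Agent.P236B.TT
import Vale.Agent.P236B.QT
import Vale.Agent.P236Xd.Zs2
import Vale.Agent.P236Xu.U1g20n1
import Vale.Agent.P236Xu.U1g19n3
import Vale.Agent.P236Xu.U1g19n1
import Vale.Agent.P236Xu.U1g20n2
import Vale.Agent.P236Xu.U1g18n3
import Vale.Agent.P236Xu.U1g19n2
import Vale.Agent.P236Xu.U1g20n0

/-!
# P236 : the check of the square on the level 1
-/

namespace Vale.Agent.P236X

open Vale.Agent.P236B Vale.Agent.P236N

set_option maxRecDepth 100000 in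
theorem un1g0 : UnOK L1 C10 P236N.mk1 1 Z2g0 :=
  unOK_of3 (V := Z2g0v) br10 rfl rfl rfl rfl (by decide +kernel)
    (cvU_append u1g0n0
    (cvU_append u1g0n1
    (cvU_append u1g0n2
    (cvU_append u1g0n3
    (cvU_append u1g0n4
    (cvU_append u1g0n5
    (cvU_append u1g0n6
    (cvU_nil _ _))))))))

set_option maxRecDepth 100000 in
theorem un1g1 : UnOK L1 C10 P236N.mk1 1 Z2g1 :=
  unOK_of3 (V := Z2g1v) br10 rfl rfl rfl rfl (by decide +kernel)
    (cvU_append u1g1n0
    (cvU_append u1g1n1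
    (cvU_append u1g1n2
    (cvU_append u1g1n3
    (cvU_append u1g1n4
    (cvU_append u1g1n5
    (cvU_nil _ _)))))))

set_option maxRecDepth 100000 in
theorem un1g2 : UnOK L1 C10 P236N.mk1 1 Z2g2 :=
  unOK_of3 (V := Z2g2v) br10 rfl rfl rfl rfl (by decide +kernel)
    (cvU_append u1g2n0
    (cvU_append u1g2n1
    (cvU_append u1g2n2
    (cvU_append u1g2n3
    (cvU_append u1g2n4
    (cvU_append u1g2n5
    (cvU_nil _ _)))))))

set_option maxRecDepth 100000 in
theorem un1g3 : UnOK L1 C10 P236N.mk1 1 Z2g3 :=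
  unOK_of3 (V := Z2g3v) br10 rfl rfl rfl rfl (by decide +kernel)
    (cvU_append u1g3n0
    (cvU_append u1g3n1
    (cvU_append u1g3n2
    (cvU_append u1g3n3
    (cvU_nil _ _)))))

set_option maxRecDepth 100000 in
theorem un1g4 : UnOK L1 C10 P236N.mk1 1 Z2g4 :=
  unOK_of3 (V := Z2g4v) br10 rfl rfl rfl rfl (by decide +kernel)
    (cvU_append u1g4n0
    (cvU_append u1g4n1
    (cvU_append u1g4n2
    (cvU_append u1g4n3
    (cvU_nil _ _)))))

set_option maxRecDepth 100000 in
theorem un1g5 : UnOK L1 C10 P236N.mk1 1 Z2g5 :=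
  unOK_of3 (V := Z2g5v) br10 rfl rfl rfl rfl (by decide +kernel)
    (cvU_append u1g5n0
    (cvU_nil _ _))

set_option maxRecDepth 100000 in
theorem un1g6 : UnOK L1 C10 P236N.mk1 1 Z2g6 :=
  unOK_of3 (V := Z2g6v) br10 rfl rfl rfl rfl (by decide +kernel)
    (cvU_append u1g6n0
    (cvU_append u1g6n1
    (cvU_append u1g6n2
    (cvU_append u1g6n3
    (cvU_append u1g6n4
    (cvU_nil _ _))))))

set_option maxRecDepth 100000 in
theorem un1g7 : UnOK L1 C10 P236N.mk1 1 Z2g7 :=
  unOK_of3 (V := Z2g7v) br10 rfl rfl rfl rfl (by decide +kernel)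
    (cvU_append u1g7n0
    (cvU_append u1g7n1
    (cvU_append u1g7n2
    (cvU_append u1g7n3
    (cvU_append u1g7n4
    (cvU_nil _ _))))))

set_option maxRecDepth 100000 in
theorem un1g8 : UnOK L1 C10 P236N.mk1 1 Z2g8 :=
  unOK_of3 (V := Z2g8v) br10 rfl rfl rfl rfl (by decide +kernel)
    (cvU_append u1g8n0
    (cvU_append u1g8n1
    (cvU_append u1g8n2
    (cvU_append u1g8n3
    (cvU_nil _ _)))))

set_option maxRecDepth 100000 in
theorem un1g9 : UnOK L1 C10 P236N.mk1 1 Z2g9 :=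
  unOK_of3 (V := Z2g9v) br10 rfl rfl rfl rfl (by decide +kernel)
    (cvU_append u1g9n0
    (cvU_append u1g9n1
    (cvU_append u1g9n2
    (cvU_append u1g9n3
    (cvU_nil _ _)))))

set_option maxRecDepth 100000 in
theorem un1g10 : UnOK L1 C10 P236N.mk1 1 Z2g10 :=
  unOK_of3 (V := Z2g10v) br10 rfl rfl rfl rfl (by decide +kernel)
    (cvU_append u1g10n0
    (cvU_append u1g10n1
    (cvU_append u1g10n2
    (cvU_append u1g10n3
    (cvU_nil _ _)))))

set_option maxRecDepth 100000 in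
theorem un1g11 : UnOK L1 C10 P236N.mk1 1 Z2g11 :=
  unOK_of3 (V := Z2g11v) br10 rfl rfl rfl rfl (by decide +kernel)
    (cvU_append u1g11n0
    (cvU_append u1g11n1
    (cvU_append u1g11n2
    (cvU_append u1g11n3
    (cvU_nil _ _)))))

set_option maxRecDepth 100000 in
theorem un1g12 : UnOK L1 C10 P236N.mk1 1 Z2g12 :=
  unOK_of3 (V := Z2g12v) br10 rfl rfl rfl rfl (by decide +kernel)
    (cvU_append u1g12n0
    (cvU_append u1g12n1
    (cvU_append u1g12n2
    (cvU_append u1g12n3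
    (cvU_nil _ _)))))

set_option maxRecDepth 100000 in
theorem un1g13 : UnOK L1 C10 P236N.mk1 1 Z2g13 :=
  unOK_of3 (V := Z2g13v) br10 rfl rfl rfl rfl (by decide +kernel)
    (cvU_append u1g13n0
    (cvU_append u1g13n1
    (cvU_append u1g13n2
    (cvU_append u1g13n3
    (cvU_nil _ _)))))

set_option maxRecDepth 100000 in
theorem un1g14 : UnOK L1 C10 P236N.mk1 1 Z2g14 :=
  unOK_of3 (V := Z2g14v) br10 rfl rfl rfl rfl (by decide +kernel)
    (cvU_append u1g14n0
    (cvU_append u1g14n1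
    (cvU_append u1g14n2
    (cvU_nil _ _))))

set_option maxRecDepth 100000 in
theorem un1g15 : UnOK L1 C10 P236N.mk1 1 Z2g15 :=
  unOK_of3 (V := Z2g15v) br10 rfl rfl rfl rfl (by decide +kernel)
    (cvU_append u1g15n0
    (cvU_append u1g15n1
    (cvU_append u1g15n2
    (cvU_append u1g15n3
    (cvU_nil _ _)))))

set_option maxRecDepth 100000 in
theorem un1g16 : UnOK L1 C10 P236N.mk1 1 Z2g16 :=
  unOK_of3 (V := Z2g16v) br10 rfl rfl rfl rfl (by decide +kernel)
    (cvU_append u1g16n0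
    (cvU_append u1g16n1
    (cvU_append u1g16n2
    (cvU_nil _ _))))

set_option maxRecDepth 100000 in
theorem un1g17 : UnOK L1 C10 P236N.mk1 1 Z2g17 :=
  unOK_of3 (V := Z2g17v) br10 rfl rfl rfl rfl (by decide +kernel)
    (cvU_append u1g17n0
    (cvU_append u1g17n1
    (cvU_append u1g17n2
    (cvU_nil _ _))))

set_option maxRecDepth 100000 in
theorem un1g18 : UnOK L1 C10 P236N.mk1 1 Z2g18 :=
  unOK_of3 (V := Z2g18v) br10 rfl rfl rfl rfl (by decide +kernel)
    (cvU_append u1g18n0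
    (cvU_append u1g18n1
    (cvU_append u1g18n2
    (cvU_append u1g18n3
    (cvU_nil _ _)))))

set_option maxRecDepth 100000 in
theorem un1g19 : UnOK L1 C10 P236N.mk1 1 Z2g19 :=
  unOK_of3 (V := Z2g19v) br10 rfl rfl rfl rfl (by decide +kernel)
    (cvU_append u1g19n0
    (cvU_append u1g19n1
    (cvU_append u1g19n2
    (cvU_append u1g19n3
    (cvU_nil _ _)))))

set_option maxRecDepth 100000 in
theorem un1g20 : UnOK L1 C10 P236N.mk1 1 Z2g20 :=
  unOK_of3 (V := Z2g20v) br10 rfl rfl rfl rfl (by decide +kernel)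
    (cvU_append u1g20n0
    (cvU_append u1g20n1
    (cvU_append u1g20n2
    (cvU_nil _ _))))

set_option maxRecDepth 100000 in
theorem lvk1 : LvOK L1 L2 P236N.mk1 94 1 2 10 Zs2 :=
  lvOK_of prgOK2_10 (by decide +kernel)
    (all_cons un1g0
    (all_cons un1g1
    (all_cons un1g2
    (all_cons un1g3
    (all_cons un1g4
    (all_cons un1g5
    (all_cons un1g6
    (all_cons un1g7
    (all_cons un1g8
    (all_cons un1g9
    (all_cons un1g10
    (all_cons un1g11
    (all_cons un1g12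
    (all_cons un1g13
    (all_cons un1g14
    (all_cons un1g15
    (all_cons un1g16
    (all_cons un1g17
    (all_cons un1g18
    (all_cons un1g19
    (all_cons un1g20
    all_nil)))))))))))))))))))))

end Vale.Agent.P236X
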