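import Vale.Agent.P236X.BrF
import Vale.Agent.P236B.TT
import Vale.Agent.P236B.QT
import Vale.Agent.P236Xd.Zs12
import Vale.Agent.P236Xu.U11g1n1
import Vale.Agent.P236Xu.U11g1n2
import Vale.Agent.P236Xu.U11g1n4
import Vale.Agent.P236Xu.U11g1n7
import Vale.Agent.P236Xu.U11g1n5
import Vale.Agent.P236Xu.U11g1n3
import Vale.Agent.P236Xu.U11g1n6

/-!
# P236 : the check of the square on the level 11
-/

namespace Vale.Agent.P236X

open Vale.Agent.P236B Vale.Agent.P236N

set_option maxRecDepth 100000 in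
theorem un11g0 : UnOK L11 C5 P236N.mk11 11 Z12g0 :=
  unOK_of3 (V := Z12g0v) br5 rfl rfl rfl rfl (by decide +kernel)
    (cvU_append u11g0n0
    (cvU_append u11g0n1
    (cvU_append u11g0n2
    (cvU_append u11g0n3
    (cvU_append u11g0n4
    (cvU_append u11g0n5
    (cvU_append u11g0n6
    (cvU_append u11g0n7
    (cvU_append u11g0n8
    (cvU_append u11g0n9
    (cvU_append u11g0n10
    (cvU_append u11g0n11
    (cvU_append u11g0n12
    (cvU_nil _ _))))))))))))))

set_option maxRecDepth 100000 in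
theorem un11g1 : UnOK L11 C5 P236N.mk11 11 Z12g1 :=
  unOK_of3 (V := Z12g1v) br5 rfl rfl rfl rfl (by decide +kernel)
    (cvU_append u11g1n0
    (cvU_append u11g1n1
    (cvU_append u11g1n2
    (cvU_append u11g1n3
    (cvU_append u11g1n4
    (cvU_append u11g1n5
    (cvU_append u11g1n6
    (cvU_append u11g1n7
    (cvU_nil _ _)))))))))

set_option maxRecDepth 100000 in
theorem lvk11 : LvOK L11 L12 P236N.mk11 94 11 2 5 Zs12 :=
  lvOK_of prgOK2_5 (by decide +kernel)
    (all_cons un11g0
    (all_cons un11g1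
    all_nil))

end Vale.Agent.P236X
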