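import Vale.Agent.P236Xu.U12g0n1
import Vale.Agent.P236Xd.Z13g0

/-!
# P236 : a part of the check of the square
-/

namespace Vale.Agent.P236X

set_option maxRecDepth 100000 in
theorem u12g0n6 : cvU Z13g0v P236N.mk12 [6, 70, 134, 198, 262, 518, 582, 10, 74, 138] = true := by
  decide +kernel

end Vale.Agent.P236X
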