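import Vale.Agent.P236Xu.U12g0n7
import Vale.Agent.P236Xd.Z13g1

/-!
# P236 : a part of the check of the square
-/

namespace Vale.Agent.P236X

set_option maxRecDepth 100000 in
theorem u12g1n3 : cvU Z13g1v P236N.mk12 [6, 70, 134, 198, 262, 518, 582, 7, 71, 135, 199, 263, 519, 583, 9, 73, 137] = true := by
  decide +kernel

end Vale.Agent.P236X
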