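import Vale.Agent.P236X.BrF
import Vale.Agent.P236B.TT
import Vale.Agent.P236B.QT
import Vale.Agent.P236Xd.Zs13
import Vale.Agent.P236Xu.U12g1n2
import Vale.Agent.P236Xu.U12g0n6
import Vale.Agent.P236Xu.U12g1n1
import Vale.Agent.P236Xu.U12g1n0
import Vale.Agent.P236Xu.U12g0n5
import Vale.Agent.P236Xu.U12g0n8
import Vale.Agent.P236Xu.U12g1n3

/-!
# P236 : the check of the square on the level 12
-/

namespace Vale.Agent.P236X

open Vale.Agent.P236B Vale.Agent.P236N

set_option maxRecDepth 100000 in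
theorem un12g0 : UnOK L12 C5 P236N.mk12 12 Z13g0 :=
  unOK_of3 (V := Z13g0v) br5 rfl rfl rfl rfl (by decide +kernel)
    (cvU_append u12g0n0
    (cvU_append u12g0n1
    (cvU_append u12g0n2
    (cvU_append u12g0n3
    (cvU_append u12g0n4
    (cvU_append u12g0n5
    (cvU_append u12g0n6
    (cvU_append u12g0n7
    (cvU_append u12g0n8
    (cvU_nil _ _))))))))))

set_option maxRecDepth 100000 in
theorem un12g1 : UnOK L12 C5 P236N.mk12 12 Z13g1 :=
  unOK_of3 (V := Z13g1v) br5 rfl rfl rfl rfl (by decide +kernel)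
    (cvU_append u12g1n0
    (cvU_append u12g1n1
    (cvU_append u12g1n2
    (cvU_append u12g1n3
    (cvU_nil _ _)))))

set_option maxRecDepth 100000 in
theorem lvk12 : LvOK L12 L13 P236N.mk12 94 12 2 5 Zs13 :=
  lvOK_of prgOK2_5 (by decide +kernel)
    (all_cons un12g0
    (all_cons un12g1
    all_nil))

end Vale.Agent.P236X
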