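import Vale.Agent.P236X.BrF
import Vale.Agent.P236B.TT
import Vale.Agent.P236B.QT
import Vale.Agent.P236Xd.Zs14
import Vale.Agent.P236Xu.U13g0n8
import Vale.Agent.P236Xu.U13g0n6
import Vale.Agent.P236Xu.U13g0n5
import Vale.Agent.P236Xu.U13g0n11
import Vale.Agent.P236Xu.U13g0n10
import Vale.Agent.P236Xu.U13g0n7
import Vale.Agent.P236Xu.U13g0n9

/-!
# P236 : the check of the square on the level 13
-/

namespace Vale.Agent.P236X

open Vale.Agent.P236B Vale.Agent.P236N

set_option maxRecDepth 100000 in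
theorem un13g0 : UnOK L13 C4 P236N.mk13 13 Z14g0 :=
  unOK_of3 (V := Z14g0v) br4 rfl rfl rfl rfl (by decide +kernel)
    (cvU_append u13g0n0
    (cvU_append u13g0n1
    (cvU_append u13g0n2
    (cvU_append u13g0n3
    (cvU_append u13g0n4
    (cvU_append u13g0n5
    (cvU_append u13g0n6
    (cvU_append u13g0n7
    (cvU_append u13g0n8
    (cvU_append u13g0n9
    (cvU_append u13g0n10
    (cvU_append u13g0n11
    (cvU_nil _ _)))))))))))))

set_option maxRecDepth 100000 in
theorem lvk13 : LvOK L13 L14 P236N.mk13 94 13 2 4 Zs14 :=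
  lvOK_of prgOK2_4 (by decide +kernel)
    (all_cons un13g0
    all_nil)

end Vale.Agent.P236X
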