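import Vale.Agent.P236X.BrF
import Vale.Agent.P236B.TT
import Vale.Agent.P236B.QT
import Vale.Agent.P236Xd.Zs15
import Vale.Agent.P236Xu.U14g0n6
import Vale.Agent.P236Xu.U14g0n4
import Vale.Agent.P236Xu.U14g0n0
import Vale.Agent.P236Xu.U14g0n5
import Vale.Agent.P236Xu.U14g0n2
import Vale.Agent.P236Xu.U14g0n3

/-!
# P236 : the check of the square on the level 14
-/

namespace Vale.Agent.P236X

open Vale.Agent.P236B Vale.Agent.P236N

set_option maxRecDepth 100000 in
theorem un14g0 : UnOK L14 C4 P236N.mk14 14 Z15g0 :=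
  unOK_of3 (V := Z15g0v) br4 rfl rfl rfl rfl (by decide +kernel)
    (cvU_append u14g0n0
    (cvU_append u14g0n1
    (cvU_append u14g0n2
    (cvU_append u14g0n3
    (cvU_append u14g0n4
    (cvU_append u14g0n5
    (cvU_append u14g0n6
    (cvU_nil _ _))))))))

set_option maxRecDepth 100000 in
theorem lvk14 : LvOK L14 L15 P236N.mk14 94 14 2 4 Zs15 :=
  lvOK_of prgOK2_4 (by decide +kernel)
    (all_cons un14g0
    all_nil)

end Vale.Agent.P236X
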