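import Vale.Agent.P236Xu.U14g0n2
import Vale.Agent.P236Xd.Z16g0

/-!
# P236 : a part of the check of the square
-/

namespace Vale.Agent.P236X

set_option maxRecDepth 100000 in
theorem u15g0n0 : cvU Z16g0v P236N.mk15 [0, 64, 128, 192, 256, 320, 512, 576, 640, 6, 70, 134, 198, 262, 518, 582] = true := by
  decide +kernel

end Vale.Agent.P236X
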