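import Vale.Agent.P236Xu.U14g0n5
import Vale.Agent.P236Xd.Z16g0

/-!
# P236 : a part of the check of the square
-/

namespace Vale.Agent.P236X

set_option maxRecDepth 100000 in
theorem u15g0n4 : cvU Z16g0v P236N.mk15 [4, 68, 132, 196, 260, 516, 580, 5, 69, 133, 197, 261, 517, 581] = true := by
  decide +kernel

end Vale.Agent.P236X
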