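import Vale.Agent.P236Xu.U14g0n6
import Vale.Agent.P236Xd.Z17g0

/-!
# P236 : a part of the check of the square
-/

namespace Vale.Agent.P236X

set_option maxRecDepth 100000 in
theorem u16g0n1 : cvU Z17g0v P236N.mk16 [2, 66, 130, 194, 258, 322, 514, 578, 642, 3, 67, 131, 195, 259, 515, 579] = true := by
  decide +kernel

end Vale.Agent.P236X
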