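import Vale.Agent.P236Xu.U15g0n5
import Vale.Agent.P236Xd.Z17g0

/-!
# P236 : a part of the check of the square
-/

namespace Vale.Agent.P236X

set_option maxRecDepth 100000 in
theorem u16g0n3 : cvU Z17g0v P236N.mk16 [6, 70, 134, 198, 518, 7, 71, 135, 199, 519, 8, 72, 136] = true := by
  decide +kernel

end Vale.Agent.P236X
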