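import Vale.Agent.P236X.BrF
import Vale.Agent.P236B.TT
import Vale.Agent.P236B.QT
import Vale.Agent.P236Xd.Zs17
import Vale.Agent.P236Xu.U16g0n1
import Vale.Agent.P236Xu.U16g0n3
import Vale.Agent.P236Xu.U16g0n0
import Vale.Agent.P236Xu.U16g0n2

/-!
# P236 : the check of the square on the level 16
-/

namespace Vale.Agent.P236X

open Vale.Agent.P236B Vale.Agent.P236N

set_option maxRecDepth 100000 in
theorem un16g0 : UnOK L16 C4 P236N.mk16 16 Z17g0 :=
  unOK_of3 (V := Z17g0v) br4 rfl rfl rfl rfl (by decide +kernel)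
    (cvU_append u16g0n0
    (cvU_append u16g0n1
    (cvU_append u16g0n2
    (cvU_append u16g0n3
    (cvU_nil _ _)))))

set_option maxRecDepth 100000 in
theorem lvk16 : LvOK L16 L17 P236N.mk16 94 16 2 4 Zs17 :=
  lvOK_of prgOK2_4 (by decide +kernel)
    (all_cons un16g0
    all_nil)

end Vale.Agent.P236X
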