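import Vale.Agent.P236Xu.U17g0n1
import Vale.Agent.P236Xd.Z20g0

/-!
# P236 : a part of the check of the square
-/

namespace Vale.Agent.P236X

set_option maxRecDepth 100000 in
theorem u19g0n1 : cvU Z20g0v P236N.mk19 [3, 67, 131, 195, 259, 515, 579, 4, 68, 132, 196, 516, 580, 5, 69, 133, 197, 261, 517, 6, 70, 134, 198, 518, 74] = true := by
  decide +kernel

end Vale.Agent.P236X
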