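import Vale.Agent.P236Xu.U2g7n6
import Vale.Agent.P236Xd.Z3g8

/-!
# P236 : a part of the check of the square
-/

namespace Vale.Agent.P236X

set_option maxRecDepth 100000 in
theorem u2g8n2 : cvU Z3g8v P236N.mk2 [4, 68, 132, 196, 260, 324, 388, 516, 580, 644, 708, 1028] = true := by
  decide +kernel

end Vale.Agent.P236X
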