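import Vale.Agent.P236X.BrF
import Vale.Agent.P236B.TT
import Vale.Agent.P236B.QT
import Vale.Agent.P236Xd.Zs3
import Vale.Agent.P236Xu.U2g8n2
import Vale.Agent.P236Xu.U2g9n4
import Vale.Agent.P236Xu.U2g9n0
import Vale.Agent.P236Xu.U2g8n4
import Vale.Agent.P236Xu.U2g9n1
import Vale.Agent.P236Xu.U2g9n2
import Vale.Agent.P236Xu.U2g9n3

/-!
# P236 : the check of the square on the level 2
-/

namespace Vale.Agent.P236X

open Vale.Agent.P236B Vale.Agent.P236N

set_option maxRecDepth 100000 in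
theorem un2g0 : UnOK L2 C5 P236N.mk2 2 Z3g0 :=
  unOK_of3 (V := Z3g0v) br5 rfl rfl rfl rfl (by decide +kernel)
    (cvU_append u2g0n0
    (cvU_append u2g0n1
    (cvU_append u2g0n2
    (cvU_append u2g0n3
    (cvU_append u2g0n4
    (cvU_append u2g0n5
    (cvU_append u2g0n6
    (cvU_append u2g0n7
    (cvU_nil _ _)))))))))

set_option maxRecDepth 100000 in
theorem un2g1 : UnOK L2 C5 P236N.mk2 2 Z3g1 :=
  unOK_of3 (V := Z3g1v) br5 rfl rfl rfl rfl (by decide +kernel)
    (cvU_append u2g1n0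
    (cvU_append u2g1n1
    (cvU_append u2g1n2
    (cvU_append u2g1n3
    (cvU_append u2g1n4
    (cvU_append u2g1n5
    (cvU_append u2g1n6
    (cvU_nil _ _))))))))

set_option maxRecDepth 100000 in
theorem un2g2 : UnOK L2 C5 P236N.mk2 2 Z3g2 :=
  unOK_of3 (V := Z3g2v) br5 rfl rfl rfl rfl (by decide +kernel)
    (cvU_append u2g2n0
    (cvU_append u2g2n1
    (cvU_append u2g2n2
    (cvU_append u2g2n3
    (cvU_append u2g2n4
    (cvU_append u2g2n5
    (cvU_append u2g2n6
    (cvU_append u2g2n7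
    (cvU_nil _ _)))))))))

set_option maxRecDepth 100000 in
theorem un2g3 : UnOK L2 C5 P236N.mk2 2 Z3g3 :=
  unOK_of3 (V := Z3g3v) br5 rfl rfl rfl rfl (by decide +kernel)
    (cvU_append u2g3n0
    (cvU_append u2g3n1
    (cvU_append u2g3n2
    (cvU_append u2g3n3
    (cvU_append u2g3n4
    (cvU_append u2g3n5
    (cvU_append u2g3n6
    (cvU_nil _ _))))))))

set_option maxRecDepth 100000 in
theorem un2g4 : UnOK L2 C5 P236N.mk2 2 Z3g4 :=
  unOK_of3 (V := Z3g4v) br5 rfl rfl rfl rfl (by decide +kernel)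
    (cvU_append u2g4n0
    (cvU_append u2g4n1
    (cvU_append u2g4n2
    (cvU_append u2g4n3
    (cvU_append u2g4n4
    (cvU_append u2g4n5
    (cvU_append u2g4n6
    (cvU_append u2g4n7
    (cvU_nil _ _)))))))))

set_option maxRecDepth 100000 in
theorem un2g5 : UnOK L2 C5 P236N.mk2 2 Z3g5 :=
  unOK_of3 (V := Z3g5v) br5 rfl rfl rfl rfl (by decide +kernel)
    (cvU_append u2g5n0
    (cvU_append u2g5n1
    (cvU_append u2g5n2
    (cvU_append u2g5n3
    (cvU_append u2g5n4
    (cvU_append u2g5n5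
    (cvU_append u2g5n6
    (cvU_append u2g5n7
    (cvU_nil _ _)))))))))

set_option maxRecDepth 100000 in
theorem un2g6 : UnOK L2 C5 P236N.mk2 2 Z3g6 :=
  unOK_of3 (V := Z3g6v) br5 rfl rfl rfl rfl (by decide +kernel)
    (cvU_append u2g6n0
    (cvU_append u2g6n1
    (cvU_append u2g6n2
    (cvU_append u2g6n3
    (cvU_append u2g6n4
    (cvU_append u2g6n5
    (cvU_append u2g6n6
    (cvU_append u2g6n7
    (cvU_nil _ _)))))))))

set_option maxRecDepth 100000 in
theorem un2g7 : UnOK L2 C5 P236N.mk2 2 Z3g7 :=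
  unOK_of3 (V := Z3g7v) br5 rfl rfl rfl rfl (by decide +kernel)
    (cvU_append u2g7n0
    (cvU_append u2g7n1
    (cvU_append u2g7n2
    (cvU_append u2g7n3
    (cvU_append u2g7n4
    (cvU_append u2g7n5
    (cvU_append u2g7n6
    (cvU_append u2g7n7
    (cvU_nil _ _)))))))))

set_option maxRecDepth 100000 in
theorem un2g8 : UnOK L2 C5 P236N.mk2 2 Z3g8 :=
  unOK_of3 (V := Z3g8v) br5 rfl rfl rfl rfl (by decide +kernel)
    (cvU_append u2g8n0
    (cvU_append u2g8n1
    (cvU_append u2g8n2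
    (cvU_append u2g8n3
    (cvU_append u2g8n4
    (cvU_nil _ _))))))

set_option maxRecDepth 100000 in
theorem un2g9 : UnOK L2 C5 P236N.mk2 2 Z3g9 :=
  unOK_of3 (V := Z3g9v) br5 rfl rfl rfl rfl (by decide +kernel)
    (cvU_append u2g9n0
    (cvU_append u2g9n1
    (cvU_append u2g9n2
    (cvU_append u2g9n3
    (cvU_append u2g9n4
    (cvU_nil _ _))))))

set_option maxRecDepth 100000 in
theorem lvk2 : LvOK L2 L3 P236N.mk2 94 2 2 5 Zs3 :=
  lvOK_of prgOK2_5 (by decide +kernel)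
    (all_cons un2g0
    (all_cons un2g1
    (all_cons un2g2
    (all_cons un2g3
    (all_cons un2g4
    (all_cons un2g5
    (all_cons un2g6
    (all_cons un2g7
    (all_cons un2g8
    (all_cons un2g9
    all_nil))))))))))

end Vale.Agent.P236X
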