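import Vale.Agent.P236Xu.U18g0n0
import Vale.Agent.P236Xd.Z22g0

/-!
# P236 : a part of the check of the square
-/

namespace Vale.Agent.P236X

set_option maxRecDepth 100000 in
theorem u21g0n0 : cvU Z22g0v P236N.mk21 [0, 64, 128, 192, 256, 512, 576, 1, 65, 129, 193, 257, 513, 577, 2, 66, 130, 194, 258, 514, 578, 3, 67, 131, 195, 515, 579, 137] = true := by
  decide +kernel

end Vale.Agent.P236X
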