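import Vale.Agent.P236X.BrF
import Vale.Agent.P236B.TT
import Vale.Agent.P236B.QT
import Vale.Agent.P236Xd.Zs4
import Vale.Agent.P236Xu.U3g8n7
import Vale.Agent.P236Xu.U3g8n8
import Vale.Agent.P236Xu.U3g8n6
import Vale.Agent.P236Xu.U3g8n9
import Vale.Agent.P236Xu.U3g8n5
import Vale.Agent.P236Xu.U3g8n11
import Vale.Agent.P236Xu.U3g8n10

/-!
# P236 : the check of the square on the level 3
-/

namespace Vale.Agent.P236X

open Vale.Agent.P236B Vale.Agent.P236N

set_option maxRecDepth 100000 in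
theorem un3g0 : UnOK L3 C5 P236N.mk3 3 Z4g0 :=
  unOK_of3 (V := Z4g0v) br5 rfl rfl rfl rfl (by decide +kernel)
    (cvU_append u3g0n0
    (cvU_append u3g0n1
    (cvU_append u3g0n2
    (cvU_append u3g0n3
    (cvU_append u3g0n4
    (cvU_append u3g0n5
    (cvU_append u3g0n6
    (cvU_append u3g0n7
    (cvU_append u3g0n8
    (cvU_append u3g0n9
    (cvU_append u3g0n10
    (cvU_nil _ _))))))))))))

set_option maxRecDepth 100000 in
theorem un3g1 : UnOK L3 C5 P236N.mk3 3 Z4g1 :=
  unOK_of3 (V := Z4g1v) br5 rfl rfl rfl rfl (by decide +kernel)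
    (cvU_append u3g1n0
    (cvU_append u3g1n1
    (cvU_append u3g1n2
    (cvU_append u3g1n3
    (cvU_append u3g1n4
    (cvU_append u3g1n5
    (cvU_append u3g1n6
    (cvU_append u3g1n7
    (cvU_append u3g1n8
    (cvU_append u3g1n9
    (cvU_append u3g1n10
    (cvU_nil _ _))))))))))))

set_option maxRecDepth 100000 in
theorem un3g2 : UnOK L3 C5 P236N.mk3 3 Z4g2 :=
  unOK_of3 (V := Z4g2v) br5 rfl rfl rfl rfl (by decide +kernel)
    (cvU_append u3g2n0
    (cvU_append u3g2n1
    (cvU_append u3g2n2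
    (cvU_append u3g2n3
    (cvU_append u3g2n4
    (cvU_append u3g2n5
    (cvU_append u3g2n6
    (cvU_append u3g2n7
    (cvU_append u3g2n8
    (cvU_append u3g2n9
    (cvU_append u3g2n10
    (cvU_append u3g2n11
    (cvU_append u3g2n12
    (cvU_nil _ _))))))))))))))

set_option maxRecDepth 100000 in
theorem un3g3 : UnOK L3 C5 P236N.mk3 3 Z4g3 :=
  unOK_of3 (V := Z4g3v) br5 rfl rfl rfl rfl (by decide +kernel)
    (cvU_append u3g3n0
    (cvU_append u3g3n1
    (cvU_append u3g3n2
    (cvU_append u3g3n3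
    (cvU_append u3g3n4
    (cvU_append u3g3n5
    (cvU_append u3g3n6
    (cvU_append u3g3n7
    (cvU_append u3g3n8
    (cvU_append u3g3n9
    (cvU_append u3g3n10
    (cvU_nil _ _))))))))))))

set_option maxRecDepth 100000 in
theorem un3g4 : UnOK L3 C5 P236N.mk3 3 Z4g4 :=
  unOK_of3 (V := Z4g4v) br5 rfl rfl rfl rfl (by decide +kernel)
    (cvU_append u3g4n0
    (cvU_append u3g4n1
    (cvU_append u3g4n2
    (cvU_append u3g4n3
    (cvU_append u3g4n4
    (cvU_append u3g4n5
    (cvU_append u3g4n6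
    (cvU_append u3g4n7
    (cvU_append u3g4n8
    (cvU_append u3g4n9
    (cvU_append u3g4n10
    (cvU_append u3g4n11
    (cvU_nil _ _)))))))))))))

set_option maxRecDepth 100000 in
theorem un3g5 : UnOK L3 C5 P236N.mk3 3 Z4g5 :=
  unOK_of3 (V := Z4g5v) br5 rfl rfl rfl rfl (by decide +kernel)
    (cvU_append u3g5n0
    (cvU_append u3g5n1
    (cvU_append u3g5n2
    (cvU_append u3g5n3
    (cvU_append u3g5n4
    (cvU_append u3g5n5
    (cvU_append u3g5n6
    (cvU_append u3g5n7
    (cvU_append u3g5n8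
    (cvU_append u3g5n9
    (cvU_append u3g5n10
    (cvU_append u3g5n11
    (cvU_append u3g5n12
    (cvU_append u3g5n13
    (cvU_append u3g5n14
    (cvU_nil _ _))))))))))))))))

set_option maxRecDepth 100000 in
theorem un3g6 : UnOK L3 C5 P236N.mk3 3 Z4g6 :=
  unOK_of3 (V := Z4g6v) br5 rfl rfl rfl rfl (by decide +kernel)
    (cvU_append u3g6n0
    (cvU_append u3g6n1
    (cvU_append u3g6n2
    (cvU_append u3g6n3
    (cvU_append u3g6n4
    (cvU_append u3g6n5
    (cvU_append u3g6n6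
    (cvU_append u3g6n7
    (cvU_append u3g6n8
    (cvU_append u3g6n9
    (cvU_append u3g6n10
    (cvU_append u3g6n11
    (cvU_append u3g6n12
    (cvU_nil _ _))))))))))))))

set_option maxRecDepth 100000 in
theorem un3g7 : UnOK L3 C5 P236N.mk3 3 Z4g7 :=
  unOK_of3 (V := Z4g7v) br5 rfl rfl rfl rfl (by decide +kernel)
    (cvU_append u3g7n0
    (cvU_append u3g7n1
    (cvU_append u3g7n2
    (cvU_append u3g7n3
    (cvU_append u3g7n4
    (cvU_append u3g7n5
    (cvU_append u3g7n6
    (cvU_append u3g7n7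
    (cvU_append u3g7n8
    (cvU_append u3g7n9
    (cvU_append u3g7n10
    (cvU_append u3g7n11
    (cvU_nil _ _)))))))))))))

set_option maxRecDepth 100000 in
theorem un3g8 : UnOK L3 C5 P236N.mk3 3 Z4g8 :=
  unOK_of3 (V := Z4g8v) br5 rfl rfl rfl rfl (by decide +kernel)
    (cvU_append u3g8n0
    (cvU_append u3g8n1
    (cvU_append u3g8n2
    (cvU_append u3g8n3
    (cvU_append u3g8n4
    (cvU_append u3g8n5
    (cvU_append u3g8n6
    (cvU_append u3g8n7
    (cvU_append u3g8n8
    (cvU_append u3g8n9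
    (cvU_append u3g8n10
    (cvU_append u3g8n11
    (cvU_nil _ _)))))))))))))

set_option maxRecDepth 100000 in
theorem lvk3 : LvOK L3 L4 P236N.mk3 94 3 2 5 Zs4 :=
  lvOK_of prgOK2_5 (by decide +kernel)
    (all_cons un3g0
    (all_cons un3g1
    (all_cons un3g2
    (all_cons un3g3
    (all_cons un3g4
    (all_cons un3g5
    (all_cons un3g6
    (all_cons un3g7
    (all_cons un3g8
    all_nil)))))))))

end Vale.Agent.P236X
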