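import Vale.Agent.P236X.BrF
import Vale.Agent.P236B.TT
import Vale.Agent.P236B.QT
import Vale.Agent.P236Xd.Zs6
import Vale.Agent.P236Xu.U5g4n10
import Vale.Agent.P236Xu.U5g4n4
import Vale.Agent.P236Xu.U5g4n5
import Vale.Agent.P236Xu.U5g4n7
import Vale.Agent.P236Xu.U5g4n11
import Vale.Agent.P236Xu.U5g4n9
import Vale.Agent.P236Xu.U5g4n8

/-!
# P236 : the check of the square on the level 5
-/

namespace Vale.Agent.P236X

open Vale.Agent.P236B Vale.Agent.P236N

set_option maxRecDepth 100000 in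
theorem un5g0 : UnOK L5 C5 P236N.mk5 5 Z6g0 :=
  unOK_of3 (V := Z6g0v) br5 rfl rfl rfl rfl (by decide +kernel)
    (cvU_append u5g0n0
    (cvU_append u5g0n1
    (cvU_append u5g0n2
    (cvU_append u5g0n3
    (cvU_append u5g0n4
    (cvU_append u5g0n5
    (cvU_append u5g0n6
    (cvU_append u5g0n7
    (cvU_append u5g0n8
    (cvU_append u5g0n9
    (cvU_append u5g0n10
    (cvU_append u5g0n11
    (cvU_append u5g0n12
    (cvU_nil _ _))))))))))))))

set_option maxRecDepth 100000 in
theorem un5g1 : UnOK L5 C5 P236N.mk5 5 Z6g1 :=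
  unOK_of3 (V := Z6g1v) br5 rfl rfl rfl rfl (by decide +kernel)
    (cvU_append u5g1n0
    (cvU_append u5g1n1
    (cvU_append u5g1n2
    (cvU_append u5g1n3
    (cvU_append u5g1n4
    (cvU_append u5g1n5
    (cvU_append u5g1n6
    (cvU_append u5g1n7
    (cvU_append u5g1n8
    (cvU_append u5g1n9
    (cvU_append u5g1n10
    (cvU_append u5g1n11
    (cvU_nil _ _)))))))))))))

set_option maxRecDepth 100000 in
theorem un5g2 : UnOK L5 C5 P236N.mk5 5 Z6g2 :=
  unOK_of3 (V := Z6g2v) br5 rfl rfl rfl rfl (by decide +kernel)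
    (cvU_append u5g2n0
    (cvU_append u5g2n1
    (cvU_append u5g2n2
    (cvU_append u5g2n3
    (cvU_append u5g2n4
    (cvU_append u5g2n5
    (cvU_append u5g2n6
    (cvU_append u5g2n7
    (cvU_append u5g2n8
    (cvU_append u5g2n9
    (cvU_append u5g2n10
    (cvU_append u5g2n11
    (cvU_append u5g2n12
    (cvU_append u5g2n13
    (cvU_append u5g2n14
    (cvU_append u5g2n15
    (cvU_append u5g2n16
    (cvU_nil _ _))))))))))))))))))

set_option maxRecDepth 100000 in
theorem un5g3 : UnOK L5 C5 P236N.mk5 5 Z6g3 :=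
  unOK_of3 (V := Z6g3v) br5 rfl rfl rfl rfl (by decide +kernel)
    (cvU_append u5g3n0
    (cvU_append u5g3n1
    (cvU_append u5g3n2
    (cvU_append u5g3n3
    (cvU_append u5g3n4
    (cvU_append u5g3n5
    (cvU_append u5g3n6
    (cvU_append u5g3n7
    (cvU_append u5g3n8
    (cvU_append u5g3n9
    (cvU_append u5g3n10
    (cvU_append u5g3n11
    (cvU_nil _ _)))))))))))))

set_option maxRecDepth 100000 in
theorem un5g4 : UnOK L5 C5 P236N.mk5 5 Z6g4 :=
  unOK_of3 (V := Z6g4v) br5 rfl rfl rfl rfl (by decide +kernel)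
    (cvU_append u5g4n0
    (cvU_append u5g4n1
    (cvU_append u5g4n2
    (cvU_append u5g4n3
    (cvU_append u5g4n4
    (cvU_append u5g4n5
    (cvU_append u5g4n6
    (cvU_append u5g4n7
    (cvU_append u5g4n8
    (cvU_append u5g4n9
    (cvU_append u5g4n10
    (cvU_append u5g4n11
    (cvU_nil _ _)))))))))))))

set_option maxRecDepth 100000 in
theorem lvk5 : LvOK L5 L6 P236N.mk5 94 5 2 5 Zs6 :=
  lvOK_of prgOK2_5 (by decide +kernel)
    (all_cons un5g0
    (all_cons un5g1
    (all_cons un5g2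
    (all_cons un5g3
    (all_cons un5g4
    all_nil)))))

end Vale.Agent.P236X
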