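import Vale.Agent.P236X.BrF
import Vale.Agent.P236B.TT
import Vale.Agent.P236B.QT
import Vale.Agent.P236Xd.Zs7
import Vale.Agent.P236Xu.U6g3n9
import Vale.Agent.P236Xu.U6g3n3
import Vale.Agent.P236Xu.U6g3n8
import Vale.Agent.P236Xu.U6g3n5
import Vale.Agent.P236Xu.U6g3n7
import Vale.Agent.P236Xu.U6g3n4
import Vale.Agent.P236Xu.U6g3n6

/-!
# P236 : the check of the square on the level 6
-/

namespace Vale.Agent.P236X

open Vale.Agent.P236B Vale.Agent.P236N

set_option maxRecDepth 100000 in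
theorem un6g0 : UnOK L6 C5 P236N.mk6 6 Z7g0 :=
  unOK_of3 (V := Z7g0v) br5 rfl rfl rfl rfl (by decide +kernel)
    (cvU_append u6g0n0
    (cvU_append u6g0n1
    (cvU_append u6g0n2
    (cvU_append u6g0n3
    (cvU_append u6g0n4
    (cvU_append u6g0n5
    (cvU_append u6g0n6
    (cvU_append u6g0n7
    (cvU_append u6g0n8
    (cvU_append u6g0n9
    (cvU_nil _ _)))))))))))

set_option maxRecDepth 100000 in
theorem un6g1 : UnOK L6 C5 P236N.mk6 6 Z7g1 :=
  unOK_of3 (V := Z7g1v) br5 rfl rfl rfl rfl (by decide +kernel)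
    (cvU_append u6g1n0
    (cvU_append u6g1n1
    (cvU_append u6g1n2
    (cvU_append u6g1n3
    (cvU_append u6g1n4
    (cvU_append u6g1n5
    (cvU_append u6g1n6
    (cvU_append u6g1n7
    (cvU_append u6g1n8
    (cvU_append u6g1n9
    (cvU_nil _ _)))))))))))

set_option maxRecDepth 100000 in
theorem un6g2 : UnOK L6 C5 P236N.mk6 6 Z7g2 :=
  unOK_of3 (V := Z7g2v) br5 rfl rfl rfl rfl (by decide +kernel)
    (cvU_append u6g2n0
    (cvU_append u6g2n1
    (cvU_append u6g2n2
    (cvU_append u6g2n3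
    (cvU_append u6g2n4
    (cvU_append u6g2n5
    (cvU_append u6g2n6
    (cvU_append u6g2n7
    (cvU_append u6g2n8
    (cvU_nil _ _))))))))))

set_option maxRecDepth 100000 in
theorem un6g3 : UnOK L6 C5 P236N.mk6 6 Z7g3 :=
  unOK_of3 (V := Z7g3v) br5 rfl rfl rfl rfl (by decide +kernel)
    (cvU_append u6g3n0
    (cvU_append u6g3n1
    (cvU_append u6g3n2
    (cvU_append u6g3n3
    (cvU_append u6g3n4
    (cvU_append u6g3n5
    (cvU_append u6g3n6
    (cvU_append u6g3n7
    (cvU_append u6g3n8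
    (cvU_append u6g3n9
    (cvU_nil _ _)))))))))))

set_option maxRecDepth 100000 in
theorem lvk6 : LvOK L6 L7 P236N.mk6 94 6 2 5 Zs7 :=
  lvOK_of prgOK2_5 (by decide +kernel)
    (all_cons un6g0
    (all_cons un6g1
    (all_cons un6g2
    (all_cons un6g3
    all_nil))))

end Vale.Agent.P236X
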