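import Vale.Agent.P236X.BrF
import Vale.Agent.P236B.TT
import Vale.Agent.P236B.QT
import Vale.Agent.P236Xd.Zs8
import Vale.Agent.P236Xu.U7g4n2
import Vale.Agent.P236Xu.U7g4n3
import Vale.Agent.P236Xu.U7g4n4
import Vale.Agent.P236Xu.U7g4n7
import Vale.Agent.P236Xu.U7g4n6
import Vale.Agent.P236Xu.U7g4n5
import Vale.Agent.P236Xu.U7g3n7

/-!
# P236 : the check of the square on the level 7
-/

namespace Vale.Agent.P236X

open Vale.Agent.P236B Vale.Agent.P236N

set_option maxRecDepth 100000 in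
theorem un7g0 : UnOK L7 C5 P236N.mk7 7 Z8g0 :=
  unOK_of3 (V := Z8g0v) br5 rfl rfl rfl rfl (by decide +kernel)
    (cvU_append u7g0n0
    (cvU_append u7g0n1
    (cvU_append u7g0n2
    (cvU_append u7g0n3
    (cvU_append u7g0n4
    (cvU_append u7g0n5
    (cvU_append u7g0n6
    (cvU_append u7g0n7
    (cvU_nil _ _)))))))))

set_option maxRecDepth 100000 in
theorem un7g1 : UnOK L7 C5 P236N.mk7 7 Z8g1 :=
  unOK_of3 (V := Z8g1v) br5 rfl rfl rfl rfl (by decide +kernel)
    (cvU_append u7g1n0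
    (cvU_append u7g1n1
    (cvU_append u7g1n2
    (cvU_append u7g1n3
    (cvU_append u7g1n4
    (cvU_append u7g1n5
    (cvU_append u7g1n6
    (cvU_nil _ _))))))))

set_option maxRecDepth 100000 in
theorem un7g2 : UnOK L7 C5 P236N.mk7 7 Z8g2 :=
  unOK_of3 (V := Z8g2v) br5 rfl rfl rfl rfl (by decide +kernel)
    (cvU_append u7g2n0
    (cvU_append u7g2n1
    (cvU_append u7g2n2
    (cvU_append u7g2n3
    (cvU_append u7g2n4
    (cvU_append u7g2n5
    (cvU_nil _ _)))))))

set_option maxRecDepth 100000 in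
theorem un7g3 : UnOK L7 C5 P236N.mk7 7 Z8g3 :=
  unOK_of3 (V := Z8g3v) br5 rfl rfl rfl rfl (by decide +kernel)
    (cvU_append u7g3n0
    (cvU_append u7g3n1
    (cvU_append u7g3n2
    (cvU_append u7g3n3
    (cvU_append u7g3n4
    (cvU_append u7g3n5
    (cvU_append u7g3n6
    (cvU_append u7g3n7
    (cvU_nil _ _)))))))))

set_option maxRecDepth 100000 in
theorem un7g4 : UnOK L7 C5 P236N.mk7 7 Z8g4 :=
  unOK_of3 (V := Z8g4v) br5 rfl rfl rfl rfl (by decide +kernel)
    (cvU_append u7g4n0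
    (cvU_append u7g4n1
    (cvU_append u7g4n2
    (cvU_append u7g4n3
    (cvU_append u7g4n4
    (cvU_append u7g4n5
    (cvU_append u7g4n6
    (cvU_append u7g4n7
    (cvU_nil _ _)))))))))

set_option maxRecDepth 100000 in
theorem lvk7 : LvOK L7 L8 P236N.mk7 94 7 2 5 Zs8 :=
  lvOK_of prgOK2_5 (by decide +kernel)
    (all_cons un7g0
    (all_cons un7g1
    (all_cons un7g2
    (all_cons un7g3
    (all_cons un7g4
    all_nil)))))

end Vale.Agent.P236X
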