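import Vale.Agent.P236Xu.U8g2n3
import Vale.Agent.P236Xd.Z9g2

/-!
# P236 : a part of the check of the square
-/

namespace Vale.Agent.P236X

set_option maxRecDepth 100000 in
theorem u8g2n10 : cvU Z9g2v P236N.mk8 [9, 73, 137, 201, 265, 521, 585, 75, 139] = true := by
  decide +kernel

end Vale.Agent.P236X
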