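import Vale.Agent.P236X.BrF
import Vale.Agent.P236B.TT
import Vale.Agent.P236B.QT
import Vale.Agent.P236Xd.Zs9
import Vale.Agent.P236Xu.U8g2n7
import Vale.Agent.P236Xu.U8g2n8
import Vale.Agent.P236Xu.U8g2n4
import Vale.Agent.P236Xu.U8g2n6
import Vale.Agent.P236Xu.U8g2n10
import Vale.Agent.P236Xu.U8g2n5
import Vale.Agent.P236Xu.U8g2n9

/-!
# P236 : the check of the square on the level 8
-/

namespace Vale.Agent.P236X

open Vale.Agent.P236B Vale.Agent.P236N

set_option maxRecDepth 100000 in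
theorem un8g0 : UnOK L8 C5 P236N.mk8 8 Z9g0 :=
  unOK_of3 (V := Z9g0v) br5 rfl rfl rfl rfl (by decide +kernel)
    (cvU_append u8g0n0
    (cvU_append u8g0n1
    (cvU_append u8g0n2
    (cvU_append u8g0n3
    (cvU_append u8g0n4
    (cvU_append u8g0n5
    (cvU_append u8g0n6
    (cvU_append u8g0n7
    (cvU_append u8g0n8
    (cvU_append u8g0n9
    (cvU_append u8g0n10
    (cvU_nil _ _))))))))))))

set_option maxRecDepth 100000 in
theorem un8g1 : UnOK L8 C5 P236N.mk8 8 Z9g1 :=
  unOK_of3 (V := Z9g1v) br5 rfl rfl rfl rfl (by decide +kernel)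
    (cvU_append u8g1n0
    (cvU_append u8g1n1
    (cvU_append u8g1n2
    (cvU_append u8g1n3
    (cvU_append u8g1n4
    (cvU_append u8g1n5
    (cvU_append u8g1n6
    (cvU_append u8g1n7
    (cvU_append u8g1n8
    (cvU_append u8g1n9
    (cvU_append u8g1n10
    (cvU_nil _ _))))))))))))

set_option maxRecDepth 100000 in
theorem un8g2 : UnOK L8 C5 P236N.mk8 8 Z9g2 :=
  unOK_of3 (V := Z9g2v) br5 rfl rfl rfl rfl (by decide +kernel)
    (cvU_append u8g2n0
    (cvU_append u8g2n1
    (cvU_append u8g2n2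
    (cvU_append u8g2n3
    (cvU_append u8g2n4
    (cvU_append u8g2n5
    (cvU_append u8g2n6
    (cvU_append u8g2n7
    (cvU_append u8g2n8
    (cvU_append u8g2n9
    (cvU_append u8g2n10
    (cvU_nil _ _))))))))))))

set_option maxRecDepth 100000 in
theorem lvk8 : LvOK L8 L9 P236N.mk8 94 8 2 5 Zs9 :=
  lvOK_of prgOK2_5 (by decide +kernel)
    (all_cons un8g0
    (all_cons un8g1
    (all_cons un8g2
    all_nil)))

end Vale.Agent.P236X
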