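import Vale.Agent.P236Xu.U9g2n5
import Vale.Agent.P236Xd.Z10g3

/-!
# P236 : a part of the check of the square
-/

namespace Vale.Agent.P236X

set_option maxRecDepth 100000 in
theorem u9g3n4 : cvU Z10g3v P236N.mk9 [4, 68, 132, 196, 260, 324, 516, 580, 644] = true := by
  decide +kernel

end Vale.Agent.P236X
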