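import Vale.Agent.P236Xu.U9g3n1
import Vale.Agent.P236Xd.Z10g3

/-!
# P236 : a part of the check of the square
-/

namespace Vale.Agent.P236X

set_option maxRecDepth 100000 in
theorem u9g3n6 : cvU Z10g3v P236N.mk9 [8, 72, 136, 200, 264, 520, 584, 73, 137, 201, 265, 521, 585, 10, 74, 138] = true := by
  decide +kernel

end Vale.Agent.P236X
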