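import Vale.Agent.P236X.BrF
import Vale.Agent.P236B.TT
import Vale.Agent.P236B.QT
import Vale.Agent.P236Xd.Zs10
import Vale.Agent.P236Xu.U9g3n3
import Vale.Agent.P236Xu.U9g3n6
import Vale.Agent.P236Xu.U9g3n0
import Vale.Agent.P236Xu.U9g3n4
import Vale.Agent.P236Xu.U9g3n2
import Vale.Agent.P236Xu.U9g2n7
import Vale.Agent.P236Xu.U9g3n5

/-!
# P236 : the check of the square on the level 9
-/

namespace Vale.Agent.P236X

open Vale.Agent.P236B Vale.Agent.P236N

set_option maxRecDepth 100000 in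
theorem un9g0 : UnOK L9 C5 P236N.mk9 9 Z10g0 :=
  unOK_of3 (V := Z10g0v) br5 rfl rfl rfl rfl (by decide +kernel)
    (cvU_append u9g0n0
    (cvU_append u9g0n1
    (cvU_append u9g0n2
    (cvU_append u9g0n3
    (cvU_append u9g0n4
    (cvU_append u9g0n5
    (cvU_append u9g0n6
    (cvU_nil _ _))))))))

set_option maxRecDepth 100000 in
theorem un9g1 : UnOK L9 C5 P236N.mk9 9 Z10g1 :=
  unOK_of3 (V := Z10g1v) br5 rfl rfl rfl rfl (by decide +kernel)
    (cvU_append u9g1n0
    (cvU_append u9g1n1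
    (cvU_append u9g1n2
    (cvU_append u9g1n3
    (cvU_append u9g1n4
    (cvU_append u9g1n5
    (cvU_append u9g1n6
    (cvU_append u9g1n7
    (cvU_nil _ _)))))))))

set_option maxRecDepth 100000 in
theorem un9g2 : UnOK L9 C5 P236N.mk9 9 Z10g2 :=
  unOK_of3 (V := Z10g2v) br5 rfl rfl rfl rfl (by decide +kernel)
    (cvU_append u9g2n0
    (cvU_append u9g2n1
    (cvU_append u9g2n2
    (cvU_append u9g2n3
    (cvU_append u9g2n4
    (cvU_append u9g2n5
    (cvU_append u9g2n6
    (cvU_append u9g2n7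
    (cvU_nil _ _)))))))))

set_option maxRecDepth 100000 in
theorem un9g3 : UnOK L9 C5 P236N.mk9 9 Z10g3 :=
  unOK_of3 (V := Z10g3v) br5 rfl rfl rfl rfl (by decide +kernel)
    (cvU_append u9g3n0
    (cvU_append u9g3n1
    (cvU_append u9g3n2
    (cvU_append u9g3n3
    (cvU_append u9g3n4
    (cvU_append u9g3n5
    (cvU_append u9g3n6
    (cvU_nil _ _))))))))

set_option maxRecDepth 100000 in
theorem lvk9 : LvOK L9 L10 P236N.mk9 94 9 2 5 Zs10 :=
  lvOK_of prgOK2_5 (by decide +kernel)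
    (all_cons un9g0
    (all_cons un9g1
    (all_cons un9g2
    (all_cons un9g3
    all_nil))))

end Vale.Agent.P236X
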