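import Vale.Agent.P236Xu.U19g0n1

/-!
# P236 : the end of a chain of checks
-/
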