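import Vale.Agent.P236X.BrF
import Vale.Agent.P236B.TT
import Vale.Agent.P236B.QT
import Vale.Agent.P236Xd.Zs5
import Vale.Agent.P236Xu.U4g5n8
import Vale.Agent.P236Xu.U4g5n11
import Vale.Agent.P236Xu.U4g5n6
import Vale.Agent.P236Xu.U4g5n7
import Vale.Agent.P236Xu.U4g5n10
import Vale.Agent.P236Xu.U4g5n5
import Vale.Agent.P236Xu.U4g5n9

/-!
# P236 : the check of the square on the level 4
-/

namespace Vale.Agent.P236X

open Vale.Agent.P236B Vale.Agent.P236N

set_option maxRecDepth 100000 in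
theorem un4g0 : UnOK L4 C5 P236N.mk4 4 Z5g0 :=
  unOK_of3 (V := Z5g0v) br5 rfl rfl rfl rfl (by decide +kernel)
    (cvU_append u4g0n0
    (cvU_append u4g0n1
    (cvU_append u4g0n2
    (cvU_append u4g0n3
    (cvU_append u4g0n4
    (cvU_append u4g0n5
    (cvU_append u4g0n6
    (cvU_append u4g0n7
    (cvU_append u4g0n8
    (cvU_append u4g0n9
    (cvU_append u4g0n10
    (cvU_nil _ _))))))))))))

set_option maxRecDepth 100000 in
theorem un4g1 : UnOK L4 C5 P236N.mk4 4 Z5g1 :=
  unOK_of3 (V := Z5g1v) br5 rfl rfl rfl rfl (by decide +kernel)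
    (cvU_append u4g1n0
    (cvU_append u4g1n1
    (cvU_append u4g1n2
    (cvU_append u4g1n3
    (cvU_append u4g1n4
    (cvU_append u4g1n5
    (cvU_append u4g1n6
    (cvU_append u4g1n7
    (cvU_append u4g1n8
    (cvU_append u4g1n9
    (cvU_append u4g1n10
    (cvU_append u4g1n11
    (cvU_append u4g1n12
    (cvU_append u4g1n13
    (cvU_append u4g1n14
    (cvU_nil _ _))))))))))))))))

set_option maxRecDepth 100000 in
theorem un4g2 : UnOK L4 C5 P236N.mk4 4 Z5g2 :=
  unOK_of3 (V := Z5g2v) br5 rfl rfl rfl rfl (by decide +kernel)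
    (cvU_append u4g2n0
    (cvU_append u4g2n1
    (cvU_append u4g2n2
    (cvU_append u4g2n3
    (cvU_append u4g2n4
    (cvU_append u4g2n5
    (cvU_append u4g2n6
    (cvU_append u4g2n7
    (cvU_append u4g2n8
    (cvU_append u4g2n9
    (cvU_append u4g2n10
    (cvU_append u4g2n11
    (cvU_nil _ _)))))))))))))

set_option maxRecDepth 100000 in
theorem un4g3 : UnOK L4 C5 P236N.mk4 4 Z5g3 :=
  unOK_of3 (V := Z5g3v) br5 rfl rfl rfl rfl (by decide +kernel)
    (cvU_append u4g3n0
    (cvU_append u4g3n1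
    (cvU_append u4g3n2
    (cvU_append u4g3n3
    (cvU_append u4g3n4
    (cvU_append u4g3n5
    (cvU_append u4g3n6
    (cvU_append u4g3n7
    (cvU_append u4g3n8
    (cvU_append u4g3n9
    (cvU_append u4g3n10
    (cvU_append u4g3n11
    (cvU_append u4g3n12
    (cvU_append u4g3n13
    (cvU_append u4g3n14
    (cvU_nil _ _))))))))))))))))

set_option maxRecDepth 100000 in
theorem un4g4 : UnOK L4 C5 P236N.mk4 4 Z5g4 :=
  unOK_of3 (V := Z5g4v) br5 rfl rfl rfl rfl (by decide +kernel)
    (cvU_append u4g4n0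
    (cvU_append u4g4n1
    (cvU_append u4g4n2
    (cvU_append u4g4n3
    (cvU_append u4g4n4
    (cvU_append u4g4n5
    (cvU_append u4g4n6
    (cvU_append u4g4n7
    (cvU_append u4g4n8
    (cvU_append u4g4n9
    (cvU_append u4g4n10
    (cvU_append u4g4n11
    (cvU_append u4g4n12
    (cvU_append u4g4n13
    (cvU_nil _ _)))))))))))))))

set_option maxRecDepth 100000 in
theorem un4g5 : UnOK L4 C5 P236N.mk4 4 Z5g5 :=
  unOK_of3 (V := Z5g5v) br5 rfl rfl rfl rfl (by decide +kernel)
    (cvU_append u4g5n0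
    (cvU_append u4g5n1
    (cvU_append u4g5n2
    (cvU_append u4g5n3
    (cvU_append u4g5n4
    (cvU_append u4g5n5
    (cvU_append u4g5n6
    (cvU_append u4g5n7
    (cvU_append u4g5n8
    (cvU_append u4g5n9
    (cvU_append u4g5n10
    (cvU_append u4g5n11
    (cvU_nil _ _)))))))))))))

set_option maxRecDepth 100000 in
theorem lvk4 : LvOK L4 L5 P236N.mk4 94 4 2 5 Zs5 :=
  lvOK_of prgOK2_5 (by decide +kernel)
    (all_cons un4g0
    (all_cons un4g1
    (all_cons un4g2
    (all_cons un4g3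
    (all_cons un4g4
    (all_cons un4g5
    all_nil))))))

end Vale.Agent.P236X
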