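import Vale.Agent.P236Xu.U1g10n2
import Vale.Agent.P236Xd.Z2g12

/-!
# P236 : a part of the check of the square
-/

namespace Vale.Agent.P236X

set_option maxRecDepth 100000 in
theorem u1g12n3 : cvU Z2g12v P236N.mk1 [578, 642, 706, 1026] = true := by
  decide +kernel

end Vale.Agent.P236X
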