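import Vale.Agent.P236Xu.U1g7n3
import Vale.Agent.P236Xd.Z2g9

/-!
# P236 : a part of the check of the square
-/

namespace Vale.Agent.P236X

set_option maxRecDepth 100000 in
theorem u1g9n2 : cvU Z2g9v P236N.mk1 [2, 66, 130, 194, 258, 322, 386, 514, 578] = true := by
  decide +kernel

end Vale.Agent.P236X
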