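import Vale.Agent.P236Xu.U2g2n4
import Vale.Agent.P236Xd.Z3g3

/-!
# P236 : a part of the check of the square
-/

namespace Vale.Agent.P236X

set_option maxRecDepth 100000 in
theorem u2g3n4 : cvU Z3g3v P236N.mk2 [5, 69, 133, 197, 261, 325, 389, 517, 581, 645, 709] = true := by
  decide +kernel

end Vale.Agent.P236X
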