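import Vale.Agent.P236Xu.U3g0n10
import Vale.Agent.P236Xd.Z4g1

/-!
# P236 : a part of the check of the square
-/

namespace Vale.Agent.P236X

set_option maxRecDepth 100000 in
theorem u3g1n3 : cvU Z4g1v P236N.mk3 [3, 67, 131, 195, 259, 323, 387, 515, 579, 643, 707, 1027] = true := by
  decide +kernel

end Vale.Agent.P236X
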