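import Vale.Agent.P236Xu.U3g2n10
import Vale.Agent.P236Xd.Z4g3

/-!
# P236 : a part of the check of the square
-/

namespace Vale.Agent.P236X

set_option maxRecDepth 100000 in
theorem u3g3n6 : cvU Z4g3v P236N.mk3 [6, 70, 134, 198, 262, 326, 518, 582, 646, 16, 80, 144, 528] = true := by
  decide +kernel

end Vale.Agent.P236X
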