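import Vale.Agent.P236Xu.U3g4n5
import Vale.Agent.P236Xd.Z4g5

/-!
# P236 : a part of the check of the square
-/

namespace Vale.Agent.P236X

set_option maxRecDepth 100000 in
theorem u3g5n0 : cvU Z4g5v P236N.mk3 [0, 64, 128, 192, 256, 320, 384, 512, 576, 640, 704, 1024] = true := by
  decide +kernel

end Vale.Agent.P236X
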