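import Vale.Agent.P236Xu.U3g6n1
import Vale.Agent.P236Xd.Z4g6

/-!
# P236 : a part of the check of the square
-/

namespace Vale.Agent.P236X

set_option maxRecDepth 100000 in
theorem u3g6n9 : cvU Z4g6v P236N.mk3 [7, 71, 135, 199, 263, 327, 519, 583, 647, 16, 80, 144, 528] = true := by
  decide +kernel

end Vale.Agent.P236X
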