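import Vale.Agent.P236Xu.U4g2n4
import Vale.Agent.P236Xd.Z5g2

/-!
# P236 : a part of the check of the square
-/

namespace Vale.Agent.P236X

set_option maxRecDepth 100000 in
theorem u4g2n11 : cvU Z5g2v P236N.mk4 [11, 75, 139, 203, 267, 13, 77, 141] = true := by
  decide +kernel

end Vale.Agent.P236X
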