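import Vale.Agent.P236Xu.U4g4n4
import Vale.Agent.P236Xd.Z5g4

/-!
# P236 : a part of the check of the square
-/

namespace Vale.Agent.P236X

set_option maxRecDepth 100000 in
theorem u4g4n11 : cvU Z5g4v P236N.mk4 [10, 74, 138, 586, 80, 144] = true := by
  decide +kernel

end Vale.Agent.P236X
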