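import Vale.Agent.P236Xu.U5g1n3
import Vale.Agent.P236Xd.Z6g1

/-!
# P236 : a part of the check of the square
-/

namespace Vale.Agent.P236X

set_option maxRecDepth 100000 in
theorem u5g1n10 : cvU Z6g1v P236N.mk5 [9, 73, 137, 521, 13, 77, 141, 525] = true := by
  decide +kernel

end Vale.Agent.P236X
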