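import Vale.Agent.P236Xu.U6g2n2
import Vale.Agent.P236Xd.Z7g3

/-!
# P236 : a part of the check of the square
-/

namespace Vale.Agent.P236X

set_option maxRecDepth 100000 in
theorem u6g3n1 : cvU Z7g3v P236N.mk6 [1, 65, 129, 193, 257, 321, 385, 513, 577, 641, 705, 1025] = true := by
  decide +kernel

end Vale.Agent.P236X
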