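import Vale.Agent.P236Xu.U8g1n0
import Vale.Agent.P236Xd.Z9g1

/-!
# P236 : a part of the check of the square
-/

namespace Vale.Agent.P236X

set_option maxRecDepth 100000 in
theorem u8g1n6 : cvU Z9g1v P236N.mk8 [517, 581, 645] = true := by
  decide +kernel

end Vale.Agent.P236X
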