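import Vale.Agent.P236Xu.U9g0n2
import Vale.Agent.P236Xd.Z10g1

/-!
# P236 : a part of the check of the square
-/

namespace Vale.Agent.P236X

set_option maxRecDepth 100000 in
theorem u9g1n2 : cvU Z10g1v P236N.mk9 [2, 66, 130, 194, 258, 322, 514, 578, 642] = true := by
  decide +kernel

end Vale.Agent.P236X
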